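import Vale.Agent.P237.Euclid

/-!
# P237: Petty's inequality, strict, for iterated cones and cylinders over planar bodies
-/

namespace Vale.Agent.Results.P237.ConesAndCylinders

open Vale.Agent.P237

theorem result :
    ∀ (n : ℕ), 3 ≤ n → ∀ K : Set (Fin n → ℝ), Built n K →
      unitBallVolume (n - 1) ^ n * unitBallVolume n ^ (2 - (n : ℤ)) * euclVolume n (embed K) ^ (n - 1)
        < euclVolume n (projBody (embed K)) :=
  fun _ hn _ hK => petty_built hn hK

end Vale.Agent.Results.P237.ConesAndCylinders
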