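import Vale.Agent.P237.Full.Core
import Vale.Agent.P237.Full.Petty

namespace Vale.Agent.Results.P237.PettyThree

open Vale.Agent.P237 Set MeasureTheory

/-- Petty's projection inequality in three-space, with the equality cases. -/
theorem result : ∀ K : Set (EuclideanSpace ℝ (Fin 3)), IsCompact K → Convex ℝ K →
    (interior K).Nonempty →
    unitBallVolume 2 ^ 3 * unitBallVolume 3 ^ (2 - (3 : ℤ)) * euclVolume 3 K ^ 2
        ≤ euclVolume 3 (projBody K) ∧
      (euclVolume 3 (projBody K)
          = unitBallVolume 2 ^ 3 * unitBallVolume 3 ^ (2 - (3 : ℤ)) * euclVolume 3 K ^ 2 ↔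
        ∃ (T : EuclideanSpace ℝ (Fin 3) ≃ₗ[ℝ] EuclideanSpace ℝ (Fin 3))
          (a : EuclideanSpace ℝ (Fin 3)), K = (fun x => T x + a) '' Metric.closedBall 0 1) :=
  fun _ hK hc hi => Full.petty_three_of (fun _ hB _ h => Full.fixed_lower hB h) hK hc hi

end Vale.Agent.Results.P237.PettyThree
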