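import Vale.Agent.P237.AllN.Universal.Contact

namespace Vale.Agent.Results.P237.PettyUpToConstant

open Vale.Agent.P237 Set MeasureTheory

/-- Petty's projection inequality in every dimension, up to one universal factor. -/
theorem result : ∃ c : ℝ, 0 < c ∧ ∀ n : ℕ, 3 ≤ n →
    ∀ K : Set (EuclideanSpace ℝ (Fin n)), IsCompact K → Convex ℝ K → (interior K).Nonempty →
      c * (unitBallVolume (n - 1) ^ n * unitBallVolume n ^ (2 - (n : ℤ)))
          * euclVolume n K ^ (n - 1)
        ≤ euclVolume n (projBody K) := by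
  obtain ⟨c, hc, h⟩ := AllN.Universal.exists_uniform fun b _ => AllN.Universal.gateSelects b
  refine ⟨c, hc, fun n hn K hK hco hi => ?_⟩
  obtain ⟨m, rfl⟩ : ∃ m, n = m + 1 := ⟨n - 1, by omega⟩
  exact AllN.Universal.petty_factor_of (h m) hK hco hi

end Vale.Agent.Results.P237.PettyUpToConstant
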